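import Mathlib

/-!
Polynomial core of the multiplier argument for circulant Hadamard matrices.
Everything happens in `(ZMod p)[X]`, where `X ^ (p ^ e * m) - 1 = (X ^ m - 1) ^ (p ^ e)`.
-/

namespace Vale.Agent.P033

open Polynomial

variable {p : ℕ} [Fact p.Prime]

lemma X_pow_sub_one_dvd_of_modEq {R : Type*} [CommRing R] {m a b : ℕ} (hab : a ≡ b [MOD m]) :
    (X ^ m - 1 : R[X]) ∣ X ^ a - X ^ b := by
  have key : ∀ a : ℕ, (X ^ m - 1 : R[X]) ∣ X ^ a - X ^ (a % m) := by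
    intro a
    have h1 : (X ^ m - 1 : R[X]) ∣ (X ^ m) ^ (a / m) - 1 ^ (a / m) := sub_dvd_pow_sub_pow _ _ _
    have h2 : (X : R[X]) ^ a - X ^ (a % m) = X ^ (a % m) * ((X ^ m) ^ (a / m) - 1 ^ (a / m)) := by
      conv_lhs => rw [← Nat.mod_add_div a m]
      rw [Nat.add_mul_mod_self_left, Nat.mod_mod]
      ring
    rw [h2]
    exact Dvd.dvd.mul_left h1 _
  have h3 : (X : R[X]) ^ a - X ^ b = (X ^ a - X ^ (a % m)) - (X ^ b - X ^ (b % m)) := by
    rw [show a % m = b % m from hab]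
    ring
  rw [h3]
  exact dvd_sub (key a) (key b)

lemma expand_sub_expand_dvd {R : Type*} [CommRing R] {m s r : ℕ} (hsr : s ≡ r [MOD m]) (f : R[X]) :
    (X ^ m - 1 : R[X]) ∣ expand R s f - expand R r f := by
  induction f using Polynomial.induction_on' with
  | add f g hf hg =>
    have : expand R s (f + g) - expand R r (f + g)
        = (expand R s f - expand R r f) + (expand R s g - expand R r g) := by
      simp only [map_add]; ring
    rw [this]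
    exact dvd_add hf hg
  | monomial k a =>
    rw [expand_monomial, expand_monomial, ← C_mul_X_pow_eq_monomial, ← C_mul_X_pow_eq_monomial,
      ← mul_sub]
    exact Dvd.dvd.mul_left (X_pow_sub_one_dvd_of_modEq (Nat.ModEq.mul_left k hsr)) _

lemma expand_prime_pow (l : ℕ) (f : (ZMod p)[X]) : expand (ZMod p) (p ^ l) f = f ^ (p ^ l) := by
  induction l with
  | zero => simp
  | succ l ih =>
    rw [pow_succ, mul_comm, expand_mul, ih, ZMod.expand_card, ← pow_mul, mul_comm]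

lemma isRadical_X_pow_sub_one {m : ℕ} (hm : ¬ p ∣ m) : IsRadical (X ^ m - 1 : (ZMod p)[X]) := by
  apply Squarefree.isRadical
  apply Separable.squarefree
  rw [X_pow_sub_one_separable_iff]
  intro h
  exact hm ((ZMod.natCast_eq_zero_iff m p).1 h)

lemma X_pow_sub_one_ne_zero {m : ℕ} (hm : ¬ p ∣ m) : (X ^ m - 1 : (ZMod p)[X]) ≠ 0 := by
  have hm0 : m ≠ 0 := by
    rintro rfl
    exact hm (dvd_zero p)
  exact (monic_X_pow_sub_C (1 : ZMod p) hm0).ne_zero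

/-- One inductive step, with the auxiliary polynomials abstracted. -/
lemma core_step {Q U H1 E1 : (ZMod p)[X]} {N i r : ℕ} (hQ0 : Q ≠ 0) (hrad : IsRadical Q)
    (hcop : IsCoprime Q U) (hi : 2 * i < N)
    (hdiv : Q ^ N ∣ (Q ^ i * H1) * ((Q * U) ^ i * E1)) (hE : Q ∣ E1 - H1 ^ r) : Q ∣ H1 := by
  have hprod : (Q ^ i * H1) * ((Q * U) ^ i * E1) = Q ^ (2 * i) * (U ^ i * (H1 * E1)) := by
    ring
  obtain ⟨k, hk⟩ : ∃ k, N = 2 * i + (k + 1) := ⟨N - 2 * i - 1, by omega⟩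
  have h1 : Q ^ (k + 1) ∣ U ^ i * (H1 * E1) := by
    rw [hprod, hk, pow_add] at hdiv
    exact (mul_dvd_mul_iff_left (pow_ne_zero _ hQ0)).1 hdiv
  have h2 : Q ∣ U ^ i * (H1 * E1) := dvd_trans (dvd_pow_self Q (Nat.succ_ne_zero k)) h1
  have h3 : Q ∣ H1 * E1 := (hcop.pow_right (n := i)).dvd_of_dvd_mul_left h2
  have h5 : Q ∣ H1 ^ (r + 1) := by
    have : H1 ^ (r + 1) = H1 * E1 - H1 * (E1 - H1 ^ r) := by ring
    rw [this]
    exact dvd_sub h3 (Dvd.dvd.mul_left hE _)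
  exact hrad _ _ h5

lemma expand_X_pow_sub_one (m s : ℕ) :
    expand (ZMod p) s (X ^ m - 1) = (X ^ m - 1) * ∑ k ∈ Finset.range s, (X ^ m) ^ k := by
  rw [mul_geom_sum]
  simp only [map_sub, map_pow, expand_X, map_one]
  rw [← pow_mul, ← pow_mul, mul_comm]

lemma isCoprime_geom (m s : ℕ) (hs : ¬ p ∣ s) :
    IsCoprime (X ^ m - 1 : (ZMod p)[X]) (∑ k ∈ Finset.range s, (X ^ m) ^ k) := by
  have hUs : (X ^ m - 1 : (ZMod p)[X]) ∣
      (∑ k ∈ Finset.range s, (X ^ m) ^ k) - (s : (ZMod p)[X]) := by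
    have : (∑ k ∈ Finset.range s, ((X : (ZMod p)[X]) ^ m) ^ k) - (s : (ZMod p)[X])
        = ∑ k ∈ Finset.range s, (((X : (ZMod p)[X]) ^ m) ^ k - 1 ^ k) := by
      rw [Finset.sum_sub_distrib]
      simp
    rw [this]
    exact Finset.dvd_sum (fun k _ => sub_dvd_pow_sub_pow _ _ _)
  obtain ⟨V, hV⟩ := hUs
  have hsunit : IsUnit (s : (ZMod p)[X]) := by
    have hs0 : (s : ZMod p) ≠ 0 := by
      intro h
      exact hs ((ZMod.natCast_eq_zero_iff s p).1 h)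
    have : (s : (ZMod p)[X]) = C (s : ZMod p) := by simp
    rw [this]
    exact (isUnit_C).2 (isUnit_iff_ne_zero.2 hs0)
  have hUeq : (∑ k ∈ Finset.range s, ((X : (ZMod p)[X]) ^ m) ^ k)
      = (s : (ZMod p)[X]) + (X ^ m - 1) * V := by rw [← hV]; ring
  rw [hUeq]
  have hc0 : IsCoprime (X ^ m - 1 : (ZMod p)[X]) (s : (ZMod p)[X]) := by
    obtain ⟨u, hu⟩ := hsunit
    exact ⟨0, ((u⁻¹ : ((ZMod p)[X])ˣ) : (ZMod p)[X]), by rw [← hu]; simp⟩
  exact hc0.add_mul_left_right V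

/-- The inductive heart: if `(X^m-1)^(p^e)` divides `H * H(X^s)` where `s` is prime to `p` and
congruent to a power of `p` modulo `m`, then `(X^m-1)^i` divides `H` as long as `2 i ≤ p^e + 1`. -/
lemma core_dvd (m e l s : ℕ) (hm : ¬ p ∣ m) (hs : ¬ p ∣ s) (hsl : s ≡ p ^ l [MOD m])
    (H : (ZMod p)[X])
    (hdiv : (X ^ m - 1 : (ZMod p)[X]) ^ (p ^ e) ∣ H * expand (ZMod p) s H) :
    ∀ i : ℕ, 2 * i ≤ p ^ e + 1 → (X ^ m - 1 : (ZMod p)[X]) ^ i ∣ H := by
  intro i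
  induction i with
  | zero => intro _; simp
  | succ i ih =>
    intro hi
    obtain ⟨H1, hH1⟩ := ih (by omega)
    have h4 : (X ^ m - 1 : (ZMod p)[X]) ∣ expand (ZMod p) s H1 - H1 ^ (p ^ l) := by
      rw [← expand_prime_pow]
      exact expand_sub_expand_dvd hsl H1
    have hdiv' : (X ^ m - 1 : (ZMod p)[X]) ^ (p ^ e) ∣ ((X ^ m - 1) ^ i * H1) *
        (((X ^ m - 1) * ∑ k ∈ Finset.range s, (X ^ m) ^ k) ^ i * expand (ZMod p) s H1) := by
      have := hdiv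
      rw [hH1, map_mul, map_pow, expand_X_pow_sub_one] at this
      exact this
    have h6 := core_step (X_pow_sub_one_ne_zero hm) (isRadical_X_pow_sub_one hm)
      (isCoprime_geom m s hs) (by omega) hdiv' h4
    rw [hH1, pow_succ]
    exact mul_dvd_mul_left _ h6

/-- Consequence: `X^(p^e*m) - 1` divides `H(X^p)`. -/
lemma core_expand (m e l s : ℕ) (hp2 : p ≠ 2) (hm : ¬ p ∣ m) (hs : ¬ p ∣ s)
    (hsl : s ≡ p ^ l [MOD m]) (H : (ZMod p)[X])
    (hdiv : (X ^ (p ^ e * m) - 1 : (ZMod p)[X]) ∣ H * expand (ZMod p) s H) :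
    (X ^ (p ^ e * m) - 1 : (ZMod p)[X]) ∣ expand (ZMod p) p H := by
  have hpow : (X ^ (p ^ e * m) - 1 : (ZMod p)[X]) = (X ^ m - 1) ^ (p ^ e) := by
    rw [sub_pow_char_pow, one_pow, ← pow_mul, mul_comm]
  rw [hpow] at hdiv ⊢
  have hodd : p ^ e % 2 = 1 := by
    have hpodd : p % 2 = 1 := by
      rcases (Fact.out : p.Prime).eq_two_or_odd with h | h
      · exact absurd h hp2
      · exact h
    rw [Nat.pow_mod, hpodd]
    simp
  have h1 := core_dvd m e l s hm hs hsl H hdiv ((p ^ e + 1) / 2) (by omega)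
  have h2 : (X ^ m - 1 : (ZMod p)[X]) ^ (p ^ e) ∣ H ^ 2 := by
    have h3 : ((X ^ m - 1 : (ZMod p)[X]) ^ ((p ^ e + 1) / 2)) ^ 2 ∣ H ^ 2 := pow_dvd_pow_of_dvd h1 2
    refine dvd_trans ?_ h3
    rw [← pow_mul]
    exact pow_dvd_pow _ (by omega)
  rw [ZMod.expand_card]
  exact dvd_trans h2 (pow_dvd_pow H (Fact.out : p.Prime).two_le)

end Vale.Agent.P033
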