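import Mathlib
import Vale.Agent.P033.Core

/-!
Bridge between `±1` sequences on `ZMod n` and polynomials over `ZMod p` modulo `X ^ n - 1`.
-/

namespace Vale.Agent.P033

open Polynomial

variable {p : ℕ} [Fact p.Prime]

/-- reduction of a sparse polynomial modulo `X^n - 1`. -/
lemma dvd_sub_fiber {ι : Type*} (S : Finset ι) (a : ι → ZMod p) (e : ι → ℕ) (n : ℕ) [NeZero n] :
    (X ^ n - 1 : (ZMod p)[X]) ∣ (∑ i ∈ S, C (a i) * X ^ (e i))
      - ∑ c : ZMod n, C (∑ i ∈ S with ((e i : ℕ) : ZMod n) = c, a i) * X ^ c.val := by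
  have h2 : ∑ c : ZMod n, C (∑ i ∈ S with ((e i : ℕ) : ZMod n) = c, a i) * X ^ c.val
      = ∑ i ∈ S, C (a i) * (X : (ZMod p)[X]) ^ (((e i : ℕ) : ZMod n)).val := by
    rw [← Finset.sum_fiberwise S (fun i => ((e i : ℕ) : ZMod n))]
    refine Finset.sum_congr rfl (fun c _ => ?_)
    rw [map_sum, Finset.sum_mul]
    refine Finset.sum_congr rfl (fun i hi => ?_)
    rw [(Finset.mem_filter.1 hi).2]
  rw [h2, ← Finset.sum_sub_distrib]
  refine Finset.dvd_sum (fun i _ => ?_)
  rw [← mul_sub]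
  refine Dvd.dvd.mul_left (X_pow_sub_one_dvd_of_modEq ?_) _
  rw [ZMod.val_natCast]
  exact (Nat.mod_modEq _ _).symm

lemma dvd_of_fiber_zero {ι : Type*} (S : Finset ι) (a : ι → ZMod p) (e : ι → ℕ) (n : ℕ) [NeZero n]
    (hz : ∀ c : ZMod n, ∑ i ∈ S with ((e i : ℕ) : ZMod n) = c, a i = 0) :
    (X ^ n - 1 : (ZMod p)[X]) ∣ ∑ i ∈ S, C (a i) * X ^ (e i) := by
  have h := dvd_sub_fiber S a e n
  simpa [hz] using h

lemma fiber_zero_of_dvd {ι : Type*} (S : Finset ι) (a : ι → ZMod p) (e : ι → ℕ) (n : ℕ) [NeZero n]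
    (hd : (X ^ n - 1 : (ZMod p)[X]) ∣ ∑ i ∈ S, C (a i) * X ^ (e i)) (c : ZMod n) :
    ∑ i ∈ S with ((e i : ℕ) : ZMod n) = c, a i = 0 := by
  have h := dvd_sub_fiber S a e n
  set b : ZMod n → ZMod p := fun c => ∑ i ∈ S with ((e i : ℕ) : ZMod n) = c, a i with hb
  have hR : (X ^ n - 1 : (ZMod p)[X]) ∣ ∑ c : ZMod n, C (b c) * X ^ c.val := by
    have := dvd_sub hd h
    rwa [sub_sub_cancel] at this
  have hcoeff : ∀ k : ℕ, (∑ c : ZMod n, C (b c) * (X : (ZMod p)[X]) ^ c.val).coeff k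
      = ∑ c : ZMod n, if k = c.val then b c else 0 := by
    intro k
    rw [finsetSum_coeff]
    refine Finset.sum_congr rfl (fun c _ => ?_)
    rw [coeff_C_mul_X_pow]
  have hdeg : (∑ c : ZMod n, C (b c) * (X : (ZMod p)[X]) ^ c.val).degree
      < (X ^ n - 1 : (ZMod p)[X]).degree := by
    have hn : 0 < n := Nat.pos_of_ne_zero (NeZero.ne n)
    have h1 : (X ^ n - 1 : (ZMod p)[X]).degree = n := by
      have := degree_X_pow_sub_C hn (1 : ZMod p)
      simpa using this
    rw [h1, degree_lt_iff_coeff_zero]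
    intro k hk
    rw [hcoeff]
    refine Finset.sum_eq_zero (fun c _ => ?_)
    rw [if_neg]
    have := ZMod.val_lt c
    omega
  have hzero := eq_zero_of_dvd_of_degree_lt hR hdeg
  have h3 := hcoeff c.val
  rw [hzero, coeff_zero] at h3
  have h4 : (∑ c' : ZMod n, if c.val = c'.val then b c' else 0) = b c := by
    rw [Finset.sum_eq_single c]
    · simp
    · intro c' _ hc'
      rw [if_neg]
      intro hv
      exact hc' (ZMod.val_injective n hv.symm)
    · intro hc
      exact absurd (Finset.mem_univ c) hc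
  rw [h4] at h3
  exact h3.symm

/-- the polynomial over `ZMod p` attached to an integer sequence on `ZMod n`. -/
noncomputable def seqPoly (p : ℕ) {n : ℕ} [NeZero n] (h : ZMod n → ℤ) : (ZMod p)[X] :=
  ∑ j : ZMod n, C ((h j : ℤ) : ZMod p) * X ^ j.val

lemma expand_seqPoly {n : ℕ} [NeZero n] (h : ZMod n → ℤ) (s : ℕ) :
    expand (ZMod p) s (seqPoly p h) = ∑ j : ZMod n, C ((h j : ℤ) : ZMod p) * X ^ (s * j.val) := by
  unfold seqPoly
  rw [map_sum]
  refine Finset.sum_congr rfl (fun j _ => ?_)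
  rw [map_mul, expand_C, map_pow, expand_X, pow_mul]

/-- If all twisted correlations `∑ j, h (c - s j) h j` vanish mod `p`, then
`X^n - 1` divides `H * H(X^s)`. -/
lemma dvd_seqPoly_mul_expand {n : ℕ} [NeZero n] (h : ZMod n → ℤ) (s : ℕ)
    (hz : ∀ c : ZMod n, (p : ℤ) ∣ ∑ j : ZMod n, h (c - (s : ZMod n) * j) * h j) :
    (X ^ n - 1 : (ZMod p)[X]) ∣ seqPoly p h * expand (ZMod p) s (seqPoly p h) := by
  have hprod : seqPoly p h * expand (ZMod p) s (seqPoly p h)
      = ∑ x ∈ (Finset.univ : Finset (ZMod n)) ×ˢ (Finset.univ : Finset (ZMod n)),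
          C (((h x.1 * h x.2 : ℤ)) : ZMod p) * X ^ (x.1.val + s * x.2.val) := by
    rw [expand_seqPoly]
    unfold seqPoly
    rw [Finset.sum_mul_sum, Finset.sum_product]
    refine Finset.sum_congr rfl (fun i _ => Finset.sum_congr rfl (fun j _ => ?_))
    rw [Int.cast_mul, C_mul, pow_add]
    ring
  rw [hprod]
  apply dvd_of_fiber_zero
  intro c
  rw [Finset.sum_filter, Finset.sum_product, Finset.sum_comm]
  have h1 : ∀ j : ZMod n, (∑ i : ZMod n,
      if (((i.val + s * j.val : ℕ)) : ZMod n) = c then (((h i * h j : ℤ)) : ZMod p) else 0)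
      = (((h (c - (s : ZMod n) * j) * h j : ℤ)) : ZMod p) := by
    intro j
    rw [Finset.sum_eq_single (c - (s : ZMod n) * j)]
    · rw [if_pos]
      push_cast
      rw [ZMod.natCast_zmod_val, ZMod.natCast_zmod_val]
      ring
    · intro i _ hi
      rw [if_neg]
      intro hc
      apply hi
      rw [← hc]
      push_cast
      rw [ZMod.natCast_zmod_val, ZMod.natCast_zmod_val]
      ring
    · intro hc
      exact absurd (Finset.mem_univ _) hc
  rw [Finset.sum_congr rfl (fun j _ => h1 j), ← Int.cast_sum]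
  exact (ZMod.intCast_zmod_eq_zero_iff_dvd _ p).2 (hz c)

/-- If `X^n - 1` divides `H(X^p)`, the sums of `h` over the fibres of `j ↦ p j` vanish mod `p`. -/
lemma fiber_sum_dvd {n : ℕ} [NeZero n] (h : ZMod n → ℤ)
    (hd : (X ^ n - 1 : (ZMod p)[X]) ∣ expand (ZMod p) p (seqPoly p h)) (c : ZMod n) :
    (p : ℤ) ∣ ∑ j : ZMod n with (p : ZMod n) * j = c, h j := by
  rw [expand_seqPoly] at hd
  have h1 := fiber_zero_of_dvd Finset.univ (fun j : ZMod n => ((h j : ℤ) : ZMod p))
    (fun j => p * j.val) n hd c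
  rw [← (ZMod.intCast_zmod_eq_zero_iff_dvd _ p), Int.cast_sum, ← h1]
  refine Finset.sum_congr ?_ (fun _ _ => rfl)
  ext j
  simp only [Finset.mem_filter, Finset.mem_univ, true_and]
  push_cast
  rw [ZMod.natCast_zmod_val]

end Vale.Agent.P033
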