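import Mathlib
import Vale.Agent.P033.Bridge

/-!
Circulant Hadamard matrices with a weak multiplier: combinatorial part of the argument.
-/

namespace Vale.Agent.P033

open Polynomial

/-- A sum of an odd prime number `p` of signs that is divisible by `p` has all signs equal. -/
lemma all_eq_of_dvd_sum {ι : Type*} [DecidableEq ι] (S : Finset ι) (f : ι → ℤ)
    (hf : ∀ i ∈ S, f i = 1 ∨ f i = -1) (p : ℕ) (hp : p.Prime) (hp2 : p ≠ 2) (hcard : S.card = p)
    (hd : (p : ℤ) ∣ ∑ i ∈ S, f i) : ∀ i ∈ S, ∀ j ∈ S, f i = f j := by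
  classical
  set A := S.filter (fun i => f i = 1) with hA
  have hsum : ∑ i ∈ S, f i = 2 * (A.card : ℤ) - p := by
    have h1 : ∑ i ∈ S, f i = ∑ i ∈ S, (2 * (if f i = 1 then (1 : ℤ) else 0) - 1) := by
      refine Finset.sum_congr rfl (fun i hi => ?_)
      rcases hf i hi with h | h
      · simp [h]
      · simp [h]
    rw [h1, Finset.sum_sub_distrib, ← Finset.mul_sum, Finset.sum_boole]
    simp [hA, hcard]
  have h2 : (p : ℤ) ∣ 2 * (A.card : ℤ) := by
    have : 2 * (A.card : ℤ) = (∑ i ∈ S, f i) + p := by rw [hsum]; ring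
    rw [this]
    exact dvd_add hd (dvd_refl _)
  have h3 : p ∣ 2 * A.card := by exact_mod_cast h2
  have h4 : p ∣ A.card := by
    rcases (Nat.Prime.dvd_mul hp).1 h3 with h | h
    · exact absurd ((Nat.prime_dvd_prime_iff_eq hp Nat.prime_two).1 h) hp2
    · exact h
  have hle : A.card ≤ p := by
    rw [← hcard]
    exact Finset.card_filter_le _ _
  have h5 : A.card = 0 ∨ A.card = p := by
    obtain ⟨k, hk⟩ := h4
    rcases Nat.eq_zero_or_pos k with h0 | h0
    · left; rw [hk, h0]; simp
    · right
      have : p * 1 ≤ p * k := Nat.mul_le_mul_left p h0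
      omega
  rcases h5 with h0 | h0
  · have hall : ∀ i ∈ S, f i = -1 := by
      intro i hi
      rcases hf i hi with h | h
      · exfalso
        have : i ∈ A := Finset.mem_filter.2 ⟨hi, h⟩
        rw [Finset.card_eq_zero.1 h0] at this
        exact absurd this (Finset.notMem_empty i)
      · exact h
    intro i hi j hj
    rw [hall i hi, hall j hj]
  · have hAS : A = S := Finset.eq_of_subset_of_card_le (Finset.filter_subset _ _) (by omega)
    have hall : ∀ i ∈ S, f i = 1 := by
      intro i hi
      rw [← hAS] at hi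
      exact (Finset.mem_filter.1 hi).2
    intro i hi j hj
    rw [hall i hi, hall j hj]

/-- the fibre of multiplication by `p` on `ZMod (p * n1)`. -/
lemma fiber_card (p n1 : ℕ) (hp : 0 < p) (hn1 : 0 < n1) (n : ℕ) [NeZero n] (hn : n = p * n1)
    (j0 : ZMod n) :
    (Finset.univ.filter (fun j : ZMod n => (p : ZMod n) * j = (p : ZMod n) * j0)).card = p := by
  classical
  have hpd : (p : ZMod n) * (n1 : ZMod n) = 0 := by
    rw [← Nat.cast_mul, ← hn]
    exact ZMod.natCast_self n
  have himg : Finset.univ.filter (fun j : ZMod n => (p : ZMod n) * j = (p : ZMod n) * j0)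
      = (Finset.range p).image (fun k : ℕ => j0 + (k : ZMod n) * (n1 : ZMod n)) := by
    ext j
    simp only [Finset.mem_filter, Finset.mem_univ, true_and, Finset.mem_image, Finset.mem_range]
    constructor
    · intro hj
      have hx : (p : ZMod n) * (j - j0) = 0 := by rw [mul_sub, hj, sub_self]
      have hx2 : ((p * (j - j0).val : ℕ) : ZMod n) = 0 := by
        push_cast
        rw [ZMod.natCast_zmod_val]
        exact hx
      have hx3 : n ∣ p * (j - j0).val := (ZMod.natCast_eq_zero_iff _ _).1 hx2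
      have hx3' : p * n1 ∣ p * (j - j0).val := hn ▸ hx3
      have hx4 : n1 ∣ (j - j0).val := Nat.dvd_of_mul_dvd_mul_left hp hx3'
      obtain ⟨k, hk⟩ := hx4
      refine ⟨k, ?_, ?_⟩
      · have hlt : (j - j0).val < n := ZMod.val_lt _
        have hlt' : n1 * k < n1 * p := by
          rw [← hk, mul_comm n1 p, ← hn]; exact hlt
        exact Nat.lt_of_mul_lt_mul_left hlt'
      · have : (j - j0) = ((n1 * k : ℕ) : ZMod n) := by
          rw [← hk, ZMod.natCast_zmod_val]
        have h2 : j = j0 + (j - j0) := by ring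
        rw [h2, this]
        push_cast
        ring
    · rintro ⟨k, _, rfl⟩
      rw [mul_add]
      have : (p : ZMod n) * ((k : ZMod n) * (n1 : ZMod n)) = (k : ZMod n) * ((p : ZMod n) * n1) := by
        ring
      rw [this, hpd]
      ring
  rw [himg, Finset.card_image_of_injOn, Finset.card_range]
  intro k hk k' hk' hkk
  simp only [Finset.coe_range, Set.mem_Iio] at hk hk'
  have h1 : ((k * n1 : ℕ) : ZMod n) = ((k' * n1 : ℕ) : ZMod n) := by
    push_cast
    exact add_left_cancel hkk
  have h2 : k * n1 ≡ k' * n1 [MOD n] := (ZMod.natCast_eq_natCast_iff _ _ _).1 h1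
  have h3 : k * n1 < n := by rw [hn]; exact Nat.mul_lt_mul_of_pos_right hk hn1
  have h4 : k' * n1 < n := by rw [hn]; exact Nat.mul_lt_mul_of_pos_right hk' hn1
  have h5 : k * n1 = k' * n1 := by
    have := h2
    unfold Nat.ModEq at this
    rwa [Nat.mod_eq_of_lt h3, Nat.mod_eq_of_lt h4] at this
  exact Nat.eq_of_mul_eq_mul_right hn1 h5

/-- A sign sequence with perfect periodic autocorrelation has no nonzero period. -/
lemma no_period {n : ℕ} [NeZero n] (h : ZMod n → ℤ) (hpm : ∀ j, h j = 1 ∨ h j = -1)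
    (hP : ∀ d : ZMod n, d ≠ 0 → ∑ j, h j * h (j + d) = 0) (d : ZMod n) (hd : d ≠ 0)
    (hper : ∀ j, h (j + d) = h j) : False := by
  have h1 := hP d hd
  have h2 : ∑ j : ZMod n, h j * h (j + d) = n := by
    have : ∀ j : ZMod n, h j * h (j + d) = 1 := by
      intro j
      rw [hper j]
      rcases hpm j with h | h <;> simp [h]
    rw [Finset.sum_congr rfl (fun j _ => this j)]
    simp [ZMod.card]
  rw [h1] at h2
  have : (n : ℤ) ≠ 0 := by exact_mod_cast NeZero.ne n
  exact this h2.symm

/-- Main lemma, natural-number multiplier. -/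
lemma no_weak_multiplier_nat (n : ℕ) [NeZero n] (h : ZMod n → ℤ) (hpm : ∀ j, h j = 1 ∨ h j = -1)
    (hP : ∀ d : ZMod n, d ≠ 0 → ∑ j, h j * h (j + d) = 0)
    (t : ℕ) (c0 : ZMod n) (ε : ℤ) (hsym : ∀ j, h ((t : ZMod n) * j + c0) = ε * h j)
    (p e m l : ℕ) (hp : p.Prime) (hp2 : p ≠ 2) (he : e ≠ 0) (hn : n = p ^ e * m)
    (hpm' : ¬ p ∣ m) (hl : m ∣ t + p ^ l) : False := by
  classical
  have : Fact p.Prime := ⟨hp⟩
  obtain ⟨e', rfl⟩ : ∃ e', e = e' + 1 := ⟨e - 1, by omega⟩
  have hm0 : 0 < m := by
    rcases Nat.eq_zero_or_pos m with h0 | h0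
    · exact absurd (h0 ▸ dvd_zero p) hpm'
    · exact h0
  set n1 : ℕ := p ^ e' * m with hn1
  have hn1pos : 0 < n1 := Nat.mul_pos (pow_pos hp.pos _) hm0
  have hnn1 : n = p * n1 := by rw [hn, hn1, pow_succ]; ring
  have hd0 : (n1 : ZMod n) ≠ 0 := by
    intro h0
    have h1 : n ∣ n1 := (ZMod.natCast_eq_zero_iff _ _).1 h0
    have h2 : n ≤ n1 := Nat.le_of_dvd hn1pos h1
    have h3 : 2 * n1 ≤ p * n1 := Nat.mul_le_mul_right n1 hp.two_le
    omega
  have hpd : (p : ZMod n) * (n1 : ZMod n) = 0 := by
    rw [← Nat.cast_mul, ← hnn1]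
    exact ZMod.natCast_self n
  have hε : ε ≠ 0 := by
    rintro rfl
    have := hsym 0
    rcases hpm ((t : ZMod n) * 0 + c0) with h1 | h1 <;> rw [h1] at this <;> simp at this
  apply no_period h hpm hP (n1 : ZMod n) hd0
  by_cases hpt : p ∣ t
  · -- the multiplier kills `n1`
    intro j
    obtain ⟨t', rfl⟩ := hpt
    have h1 : ((p * t' : ℕ) : ZMod n) * (j + n1) + c0 = ((p * t' : ℕ) : ZMod n) * j + c0 := by
      have : ((p * t' : ℕ) : ZMod n) * (n1 : ZMod n) = 0 := by
        push_cast
        rw [mul_right_comm, hpd, zero_mul]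
      rw [mul_add, this, add_zero]
    have h2 := hsym (j + n1)
    rw [h1, hsym j] at h2
    exact (mul_left_cancel₀ hε h2).symm
  · -- `t` is a unit modulo `n`
    have hcop_m : Nat.Coprime t m := by
      have h1 : Nat.Coprime (p ^ l) m := Nat.Coprime.pow_left l ((Nat.Prime.coprime_iff_not_dvd hp).2 hpm')
      have hg : Nat.gcd t m ∣ p ^ l := by
        have h2 : Nat.gcd t m ∣ t + p ^ l := dvd_trans (Nat.gcd_dvd_right t m) hl
        exact (Nat.dvd_add_right (Nat.gcd_dvd_left t m)).1 h2
      have hg2 : Nat.gcd t m ∣ Nat.gcd (p ^ l) m := Nat.dvd_gcd hg (Nat.gcd_dvd_right t m)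
      rw [h1] at hg2
      exact Nat.dvd_one.1 hg2
    have hcop : Nat.Coprime t n := by
      rw [hn]
      refine Nat.Coprime.mul_right ?_ hcop_m
      exact Nat.Coprime.pow_right _ (((Nat.Prime.coprime_iff_not_dvd hp).2 hpt).symm)
    have hunit : IsUnit (t : ZMod n) := (ZMod.isUnit_iff_coprime t n).2 hcop
    obtain ⟨u, hu⟩ := hunit
    have hnpos : 1 ≤ n := Nat.pos_of_ne_zero (NeZero.ne n)
    set s : ℕ := (n - 1) * t with hs
    have hscast : (s : ZMod n) = -(t : ZMod n) := by
      rw [hs]
      push_cast [Nat.cast_sub hnpos]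
      rw [ZMod.natCast_self]
      ring
    have hps : ¬ p ∣ s := by
      intro hdvd
      rcases (Nat.Prime.dvd_mul hp).1 hdvd with h1 | h1
      · have h2 : p ∣ n := by rw [hnn1]; exact dvd_mul_right _ _
        have h3 : p ∣ 1 := by
          have : n = (n - 1) + 1 := by omega
          rw [this] at h2
          exact (Nat.dvd_add_right h1).1 h2
        exact hp.one_lt.ne' (Nat.dvd_one.1 h3)
      · exact hpt h1
    have hsl : s ≡ p ^ l [MOD m] := by
      rw [← ZMod.natCast_eq_natCast_iff]
      have hnm : (n : ZMod m) = 0 := by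
        rw [ZMod.natCast_eq_zero_iff, hn]
        exact dvd_mul_left _ _
      have htl : ((t + p ^ l : ℕ) : ZMod m) = 0 := (ZMod.natCast_eq_zero_iff _ _).2 hl
      rw [hs]
      push_cast [Nat.cast_sub hnpos]
      push_cast at htl
      rw [hnm]
      linear_combination (-1 : ZMod m) * htl
    -- twisted correlations
    have hz : ∀ c : ZMod n, (p : ℤ) ∣ ∑ j : ZMod n, h (c - (s : ZMod n) * j) * h j := by
      intro c
      set d : ZMod n := ((u⁻¹ : (ZMod n)ˣ) : ZMod n) * (c - c0) with hd
      have htd : (t : ZMod n) * d = c - c0 := by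
        rw [hd, ← hu, ← mul_assoc]
        simp
      have h1 : ∀ j : ZMod n, h (c - (s : ZMod n) * j) * h j = ε * (h j * h (j + d)) := by
        intro j
        have : c - (s : ZMod n) * j = (t : ZMod n) * (j + d) + c0 := by
          rw [hscast, mul_add, htd]
          ring
        rw [this, hsym]
        ring
      rw [Finset.sum_congr rfl (fun j _ => h1 j), ← Finset.mul_sum]
      apply Dvd.dvd.mul_left
      by_cases hd0' : d = 0
      · have : ∑ j : ZMod n, h j * h (j + d) = n := by
          have h2 : ∀ j : ZMod n, h j * h (j + d) = 1 := by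
            intro j
            rw [hd0', add_zero]
            rcases hpm j with h | h <;> simp [h]
          rw [Finset.sum_congr rfl (fun j _ => h2 j)]
          simp [ZMod.card]
        rw [this, hnn1]
        push_cast
        exact dvd_mul_right _ _
      · rw [hP d hd0']
        exact dvd_zero _
    have hdiv := dvd_seqPoly_mul_expand (p := p) h s hz
    have hdiv2 : (X ^ (p ^ (e' + 1) * m) - 1 : (ZMod p)[X]) ∣
        seqPoly p h * expand (ZMod p) s (seqPoly p h) := by
      rw [← hn]; exact hdiv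
    have hexp := core_expand m (e' + 1) l s hp2 hpm' hps hsl (seqPoly p h) hdiv2
    rw [← hn] at hexp
    intro j
    have hfs := fiber_sum_dvd (p := p) h hexp ((p : ZMod n) * j)
    have hcard := fiber_card p n1 hp.pos hn1pos n hnn1 j
    have hall := all_eq_of_dvd_sum _ h (fun i _ => hpm i) p hp hp2 hcard hfs
    apply hall
    · simp only [Finset.mem_filter, Finset.mem_univ, true_and]
      rw [mul_add, hpd, add_zero]
    · simp

end Vale.Agent.P033
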